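import Mathlib
import Vale.Agent.Lib.P302.helper14.MultiQ

/-!
# P302: layered triple search with a weight bound

A variant of the verified refutation search of `Vale.Agent.Lib.P302.helper14.Layer`: the start
state may be any rearrangement of the items, and a state is discarded as soon as a weight bound
shows that it cannot be split into triples.  The weights `y` are natural numbers attached to the
sizes such that every triple of sizes of total at most `L` has total weight at least `sc`; a list
of `3 t` sizes that splits into `t` such triples then has total weight at least `t * sc`.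
-/

namespace Vale.Agent.Lib.P302.helper10

open Vale.Agent.Lib.P302.helper14

/-- The weight of the size `x` in the table `tbl` of pairs (size, weight); a size that is not
listed gets the weight `sc`. -/
def look (sc : ℕ) : List (ℕ × ℕ) → ℕ → ℕ
  | [], _ => sc
  | p :: tbl, x => if x = p.1 then p.2 else look sc tbl x

theorem look_spec (sc : ℕ) : ∀ (tbl : List (ℕ × ℕ)) (x : ℕ),
    look sc tbl x = sc ∨ (x, look sc tbl x) ∈ tbl
  | [], _ => Or.inl rfl
  | p :: tbl, x => by
    unfold look
    split_ifs with h
    · right
      subst h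
      exact List.mem_cons_self
    · rcases look_spec sc tbl x with h' | h'
      · left
        exact h'
      · right
        exact List.mem_cons_of_mem _ h'

/-- Boolean test: every triple of listed sizes of total at most `L` has total weight at least
`sc`. -/
def dualOK (L sc : ℕ) (tbl : List (ℕ × ℕ)) : Bool :=
  tbl.all fun p => tbl.all fun q => tbl.all fun r =>
    Nat.blt L (p.1 + q.1 + r.1) || Nat.ble sc (p.2 + q.2 + r.2)

theorem dualOK_sound {L sc : ℕ} {tbl : List (ℕ × ℕ)} (h : dualOK L sc tbl = true) (a b c : ℕ)
    (habc : a + b + c ≤ L) : sc ≤ look sc tbl a + look sc tbl b + look sc tbl c := by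
  rcases look_spec sc tbl a with ha | ha
  · omega
  rcases look_spec sc tbl b with hb | hb
  · omega
  rcases look_spec sc tbl c with hc | hc
  · omega
  unfold dualOK at h
  have h1 := List.all_eq_true.mp h _ ha
  have h2 := List.all_eq_true.mp h1 _ hb
  have h3 := List.all_eq_true.mp h2 _ hc
  rw [Bool.or_eq_true] at h3
  rcases h3 with h3 | h3
  · rw [Nat.blt_eq] at h3
    simp only at h3
    omega
  · exact Nat.le_of_ble_eq_true h3

/-- A family of triples of total at most `L` each has total weight at least `sc` per triple. -/
theorem weight_triples {L sc : ℕ} {f : ℕ → ℕ}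
    (hf : ∀ a b c : ℕ, a + b + c ≤ L → sc ≤ f a + f b + f c) (T : Multiset (Multiset ℕ)) :
    (∀ τ ∈ T, Multiset.card τ = 3 ∧ τ.sum ≤ L) →
      sc * Multiset.card T.sum ≤ 3 * (T.sum.map f).sum := by
  induction T using Multiset.induction_on with
  | empty => intro _; simp
  | cons τ T ih =>
    intro hT
    have hτ := hT τ (Multiset.mem_cons_self _ _)
    have ih' := ih (fun σ hσ => hT σ (Multiset.mem_cons_of_mem hσ))
    obtain ⟨a, b, c, rfl⟩ := Multiset.card_eq_three.mp hτ.1
    have hsum : a + b + c ≤ L := by
      have := hτ.2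
      simp at this
      omega
    have hw := hf a b c hsum
    rw [Multiset.sum_cons, Multiset.card_add, Multiset.map_add, Multiset.sum_add]
    have e1 : Multiset.card ({a, b, c} : Multiset ℕ) = 3 := hτ.1
    have e2 : ((({a, b, c} : Multiset ℕ)).map f).sum = f a + f b + f c := by
      simp [add_assoc]
    rw [e1, e2]
    nlinarith

/-- The weight test for a state. -/
def keep (sc : ℕ) (tbl : List (ℕ × ℕ)) (s : List ℕ) : Bool :=
  Nat.ble (sc * s.length) (3 * (s.map (look sc tbl)).sum)

theorem keep_of_triPart {L sc : ℕ} {tbl : List (ℕ × ℕ)} (h : dualOK L sc tbl = true)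
    {s : List ℕ} (hT : TriPart L (s : Multiset ℕ)) : keep sc tbl s = true := by
  obtain ⟨T, hT1, hT2⟩ := hT
  have key := weight_triples (f := look sc tbl) (dualOK_sound h) T hT1
  rw [hT2] at key
  simp only [Multiset.coe_card, Multiset.map_coe, Multiset.sum_coe] at key
  exact Nat.ble_eq_true_of_le key

/-- One step of the search: all children of the states of a layer that pass the weight test,
sorted and with repetitions removed. -/
def stepW (L sc : ℕ) (tbl : List (ℕ × ℕ)) (layer : List (List ℕ)) : List (List ℕ) :=
  mergeAll 64 ((layer.flatMap fun s => (childrenOf L s).filter (keep sc tbl)).map fun s => [s])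

/-- `reachW L sc tbl d layer = true` certifies that no state of `layer` can be split into triples
of total size at most `L`. -/
def reachW (L sc : ℕ) (tbl : List (ℕ × ℕ)) : ℕ → List (List ℕ) → Bool
  | 0, layer => layer.isEmpty
  | d + 1, layer => !(layer.any List.isEmpty) && reachW L sc tbl d (stepW L sc tbl layer)

theorem reachW_sound {L sc : ℕ} {tbl : List (ℕ × ℕ)} (hd : dualOK L sc tbl = true) :
    ∀ (d : ℕ) (layer : List (List ℕ)), reachW L sc tbl d layer = true →
      ∀ s ∈ layer, ¬ TriPart L (s : Multiset ℕ)
  | 0, layer, h, s, hs => by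
    unfold reachW at h
    rw [List.isEmpty_iff] at h
    rw [h] at hs
    simp at hs
  | d + 1, layer, h, s, hs => by
    intro hT
    unfold reachW at h
    rw [Bool.and_eq_true] at h
    obtain ⟨hne, h⟩ := h
    cases s with
    | nil =>
      have : layer.any List.isEmpty = true := List.any_eq_true.mpr ⟨[], hs, rfl⟩
      rw [this] at hne
      simp at hne
    | cons x rest =>
      obtain ⟨b, hb, c', hmf, hfit, hc'mem, hT'⟩ := triPart_child hT
      have hm0 := minList_le rest x
      obtain ⟨s', hs'T, hs'⟩ := children_good (L := L) (x := x) (m0 := minList x rest)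
        (rest := rest) hm0.2 rest none none (fun b hb => hb) (fun lb lc h => by simp at h)
        (fun p c hp _ => by simp at hp) b hb c' hmf hT'
      have hchild : s' ∈ childrenOf L (x :: rest) := by
        unfold childrenOf
        rcases hs' with h1 | ⟨lb, lc, h1, -⟩
        · exact h1
        · simp at h1
      have hkeep : keep sc tbl s' = true := keep_of_triPart hd hs'T
      have hstep : s' ∈ stepW L sc tbl layer := by
        unfold stepW
        refine mem_mergeAll _ _ _ ⟨[s'], ?_, List.mem_singleton.mpr rfl⟩
        refine List.mem_map.mpr ⟨s', ?_, rfl⟩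
        exact List.mem_flatMap.mpr ⟨_, hs, List.mem_filter.mpr ⟨hchild, hkeep⟩⟩
      exact reachW_sound hd d _ h _ hstep hs'T

/-- The certificate check: the items `l` (sorted non-increasingly, all larger than `L/4`) cannot
be packed into `m` bins of capacity `L`.  `start` is a rearrangement of the lightest
`3 (n - 2m)` items, `tbl` a table of weights with scale `sc`. -/
def checkW (l : List ℕ) (L m sc : ℕ) (tbl : List (ℕ × ℕ)) (start : List ℕ) : Bool :=
  sortedDesc l &&
    (l.all (fun k => Nat.ble L (4 * k)) && l.dropLast.all (fun k => Nat.blt L (4 * k))) &&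
    Nat.ble (3 * (l.length - 2 * m)) l.length &&
    start.isPerm (l.drop (l.length - 3 * (l.length - 2 * m))) &&
    dualOK L sc tbl &&
    reachW L sc tbl (l.length - 2 * m) [start]

theorem checkW_sound {l : List ℕ} {L m sc : ℕ} {tbl : List (ℕ × ℕ)} {start : List ℕ}
    (h : checkW l L m sc tbl start = true) : ¬ PackableNat l L m := by
  intro hp
  unfold checkW at h
  simp only [Bool.and_eq_true] at h
  obtain ⟨⟨⟨⟨⟨hsorted, hbig1', hbig2'⟩, hle'⟩, hperm'⟩, hdual⟩, hreach⟩ := h
  have hbig1 : ∀ k ∈ l, L ≤ 4 * k := by
    intro k hk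
    exact Nat.le_of_ble_eq_true (List.all_eq_true.mp hbig1' k hk)
  have hbig2 : ∀ k ∈ l.dropLast, L < 4 * k := by
    intro k hk
    have := List.all_eq_true.mp hbig2' k hk
    rwa [Nat.blt_eq] at this
  have hle : 3 * (l.length - 2 * m) ≤ l.length := Nat.le_of_ble_eq_true hle'
  have hperm : start.Perm (l.drop (l.length - 3 * (l.length - 2 * m))) :=
    List.isPerm_iff.mp hperm'
  have hQ := exists_triples (card_le_three hbig1 hbig2) hp
  have hQ' := QTri.drop (l.length - 3 * (l.length - 2 * m)) l (sortedDesc_sound hsorted)
    (by omega) hQ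
  obtain ⟨U, hU, hc, hT⟩ := hQ'
  have hUeq : U = ((l.drop (l.length - 3 * (l.length - 2 * m)) : List ℕ) : Multiset ℕ) := by
    apply Multiset.eq_of_le_of_card_le hU
    simp only [Multiset.coe_card, List.length_drop]
    omega
  have hUs : U = (start : Multiset ℕ) := by
    rw [hUeq]
    exact (Multiset.coe_eq_coe.mpr hperm).symm
  rw [hUs] at hT
  exact reachW_sound hdual _ _ hreach start (List.mem_singleton.mpr rfl) hT

/-- Certificate theorem: for items of integer sizes `l` (sorted non-increasingly, all larger than
`L/4`) and capacity `L`, if the weighted triple search refutes a packing into `m` bins and `zs`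
is a fractional solution of value `V / D`, then `OPT - LP ≥ m + 1 - V / D`. -/
theorem gap_of_cert_w (l : List ℕ) (L m D sc : ℕ) (tbl : List (ℕ × ℕ)) (start : List ℕ)
    (zs : List (List ℕ × ℕ)) (hL : 0 < L) (hD : 0 < D)
    (hle : ∀ k ∈ l, 0 < k ∧ k ≤ L) (hpack : checkW l L m sc tbl start = true)
    (hfrac : fracOK l L D zs = true) :
    IsInstance (ratInst l L) ∧
      ((m : ℝ) + 1) - (((zs.map Prod.snd).sum : ℕ) : ℝ) / D
        ≤ (OPT (ratInst l L) : ℝ) - LP (ratInst l L) := by
  have hI := ratInst_isInstance hL hle
  refine ⟨hI, ?_⟩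
  have h1 : m + 1 ≤ OPT (ratInst l L) :=
    opt_ge hI (fun hp => checkW_sound hpack (packableNat_of_packable hL hp))
  have h2 := lp_le (isFracSol_of_fracOK hL hD hfrac)
  rw [ratSol_value] at h2
  have h1' : ((m : ℝ) + 1) ≤ (OPT (ratInst l L) : ℝ) := by exact_mod_cast h1
  have h2' : LP (ratInst l L) ≤ (((zs.map Prod.snd).sum : ℕ) : ℝ) / D := by
    have e : ((((((zs.map Prod.snd).sum : ℕ) : ℚ) / D : ℚ)) : ℝ)
        = (((zs.map Prod.snd).sum : ℕ) : ℝ) / D := by
      rw [Rat.cast_div, Rat.cast_natCast, Rat.cast_natCast]
    rw [← e]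
    exact h2
  linarith

end Vale.Agent.Lib.P302.helper10
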