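import Mathlib
import Vale.Agent.Lib.P302.helper10.Weighted

/-!
# P302: data and checks for a 56-item instance with `OPT - LP ≥ 1957/1620`

An explicit instance with 56 items (integer sizes `sizes`, bin capacity `cap`, every size strictly
between a quarter and a half of the capacity) whose optimum is at least `20` bins while its
Gilmore-Gomory configuration LP has value at most `30443/1620`.  Hence
`OPT - LP ≥ 1957/1620 > 6/5`.

* `OPT ≥ 20`: a packing into `19` bins would contain `18` bins with three items each, so the
  lightest `54` items would split into triples that fit; the verified search `checkW` refutes this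
  (`start` lists these items in the order in which the search treats them, `weights` is a table of
  weights of scale `1620` under which every fitting triple weighs at least `1620`).
* `LP ≤ 30443/1620`: `frac` is an explicit fractional solution (weights
  are the listed numerators over `1620`), checked by `fracOK`.
-/

namespace Vale.Agent.Lib.P302.helper10.InstA

open Vale.Agent.Lib.P302.helper14 Vale.Agent.Lib.P302.helper10

/-- The bin capacity. -/
def cap : ℕ := 2180400

/-- The 56 item sizes (in units of `1 / cap`), in non-increasing order. -/
def sizes : List ℕ :=
  [818000, 817653, 817650, 817648, 817647, 817646, 817645, 817642,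
   817642, 817640, 817638, 817450, 817448, 817447, 817446, 817445,
   817442, 817442, 817440, 817438, 817424, 817423, 817419, 817418,
   817415, 817402, 817299, 750800, 750800, 750800, 749200, 734800,
   734800, 731600, 726800, 726800, 722800, 717200, 714800, 710000,
   682000, 681200, 678800, 545567, 545564, 545562, 545549, 545519,
   545516, 545510, 545502, 545448, 545119, 545116, 545110, 545102]

/-- The lightest 54 items, in the order used by the search. -/
def start : List ℕ :=
  [750800, 750800, 750800, 749200, 734800, 734800, 731600, 726800,
   726800, 722800, 717200, 714800, 710000, 682000, 681200, 678800,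
   817650, 817648, 817647, 817646, 817645, 817642, 817642, 817640,
   817638, 817450, 817448, 817447, 817446, 817445, 817442, 817442,
   817440, 817438, 817424, 817423, 817419, 817418, 817415, 817402,
   817299, 545567, 545564, 545562, 545549, 545519, 545516, 545510,
   545502, 545448, 545119, 545116, 545110, 545102]

/-- Weights of the sizes (scale 1620). -/
def weights : List (ℕ × ℕ) :=
  [(818000, 0), (817653, 0), (817650, 0), (817648, 0),
    (817647, 0), (817646, 0), (817645, 21), (817642, 42),
    (817640, 63), (817638, 84), (817450, 126), (817448, 126),
    (817447, 126), (817446, 126), (817445, 133), (817442, 140),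
    (817440, 147), (817438, 154), (817424, 168), (817423, 168),
    (817419, 182), (817418, 189), (817415, 196), (817402, 210),
    (817299, 252), (750800, 378), (749200, 432), (734800, 486),
    (731600, 513), (726800, 540), (722800, 567), (717200, 594),
    (714800, 621), (710000, 648), (682000, 756), (681200, 810),
    (678800, 864), (545567, 1242), (545564, 1242), (545562, 1256),
    (545549, 1284), (545519, 1326), (545516, 1340), (545510, 1354),
    (545502, 1368), (545448, 1368), (545119, 1494), (545116, 1536),
    (545110, 1578), (545102, 1620)]

/-- A fractional solution of the configuration LP: configurations with weight numerators, the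
common denominator being `1620`. -/
def frac : List (List ℕ × ℕ) :=
  [([750800, 750800, 678800], 1098),
    ([817647, 817642, 545110], 258),
    ([817645, 817645, 545110], 810),
    ([817646, 817638, 545116], 810),
    ([817423, 817415, 545562], 1080),
    ([817448, 817442, 545510], 810),
    ([817448, 817402, 545549], 810),
    ([817445, 817445, 545510], 810),
    ([817446, 817438, 545516], 810),
    ([817450, 817450, 545448], 240),
    ([817653, 817299, 545448], 540),
    ([817418, 817418, 545564], 810),
    ([749200, 749200, 682000], 810),
    ([731600, 731600, 717200], 810),
    ([817647, 750800, 545567], 258),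
    ([750800, 717200, 710000], 636),
    ([750800, 714800, 714800], 810),
    ([734800, 726800, 717200], 174),
    ([734800, 722800, 722800], 810),
    ([726800, 726800, 726800], 1022),
    ([817442, 817442, 545516], 810),
    ([817653, 681200, 681200], 810),
    ([817640, 817640, 545119], 810),
    ([817647, 817647, 545102], 552),
    ([817642, 817642, 545116], 810),
    ([817650, 817646, 545102], 258),
    ([817440, 817440, 545519], 810),
    ([817423, 817402, 545567], 540),
    ([817650, 817299, 545448], 840),
    ([817447, 817447, 545502], 720),
    ([817450, 817446, 545502], 720),
    ([817419, 817415, 545564], 540),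
    ([817450, 817447, 545502], 180),
    ([817442, 817438, 545519], 810),
    ([818000, 750800, 545567], 402),
    ([817446, 817402, 545549], 90),
    ([817424, 817424, 545549], 720),
    ([817419, 817419, 545562], 540),
    ([817642, 817638, 545119], 810),
    ([817653, 750800, 545564], 270),
    ([817648, 817648, 545102], 810),
    ([817646, 817642, 545110], 552),
    ([734800, 734800, 710000], 984),
    ([750800, 734800, 682000], 288),
    ([817450, 817299, 545567], 240),
    ([817650, 682000, 678800], 522),
    ([817424, 817402, 545567], 180),
    ([818000, 818000], 609)]

theorem frac_total : (frac.map Prod.snd).sum = 30443 := by decide +kernel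

theorem sizes_ok : ∀ k ∈ sizes, 0 < k ∧ k ≤ cap := by decide +kernel

theorem frac_ok : fracOK sizes cap 1620 frac = true := by decide +kernel

theorem pack_ok : checkW sizes cap 19 1620 weights start = true := by decide +kernel

/-- The instance: the 56 sizes divided by the capacity. -/
def inst : List ℚ := ratInst sizes cap

theorem inst_length : inst.length = 56 := by simp [inst, ratInst, sizes]

/-- The instance has sizes in `(0,1]` and `OPT - LP ≥ 1957/1620`. -/
theorem inst_gap : IsInstance inst ∧ (1957 / 1620 : ℝ) ≤ (OPT inst : ℝ) - LP inst := by
  have h := gap_of_cert_w sizes cap 19 1620 1620 weights start frac (by decide) (by decide)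
    sizes_ok pack_ok frac_ok
  refine ⟨h.1, ?_⟩
  have h2 := h.2
  rw [frac_total] at h2
  have e : (((19 : ℕ) : ℝ) + 1) - (((30443 : ℕ) : ℝ)) / ((1620 : ℕ) : ℝ)
      = 1957 / 1620 := by norm_num
  rw [e] at h2
  exact h2

end Vale.Agent.Lib.P302.helper10.InstA
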